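import Vale.Agent.P099.Main

open MeasureTheory
open scoped Real

namespace Vale.Agent.Results.P099.A_full

open Vale.Agent.P099

/-- In every irrational triangle the billiard flow preserves the Liouville probability measure,
is ergodic and is weakly mixing. -/
theorem result (A : Fin 3 → ℂ) (hA : AffineIndependent ℝ A)
    (hirr : ¬ ∀ i, ∃ r : ℚ, EuclideanGeometry.angle (A (i + 1)) (A i) (A (i + 2)) = r * π) :
    IsProbabilityMeasure (liouville A) ∧
    (∀ t, MeasurePreserving (flow A t) (liouville A) (liouville A)) ∧
    IsErgodicFlow (flow A) (liouville A) ∧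
    IsErgodicFlow (fun t (z : (ℂ × UnitAddCircle) × (ℂ × UnitAddCircle)) =>
      (flow A t z.1, flow A t z.2)) ((liouville A).prod (liouville A)) :=
  ⟨isProb_liouville hA, measurePreserving_flow hA, main hA hirr⟩

end Vale.Agent.Results.P099.A_full
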